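import Crest.Agent.R202.FH

/-!
# Passing to the infinite horizon (task C7)

Take an ultrafilter `𝒰 ≤ atTop` on the horizons.  `κ m` converges in a compact ball, so the paths converge locally uniformly; for good
`a` the functions `c k`, `c₁ k` are eventually uniformly Lipschitz on compact intervals (the sum in the equation has only the terms
`deg k₁ ≤ deg k + d`; `c₁ k 0 = rate * c k 0`), hence converge locally uniformly along `𝒰`;
`hasDerivAt_of_tendstoLocallyUniformlyOn`.  The lower bound passes to the limit by the exponential decay (`summable_poly_exp`).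
-/

set_option autoImplicit false

noncomputable section

open scoped InnerProductSpace ContDiff
open Set Filter Topology

namespace Crest.Agent.R202

section lim

open Asymptotics

variable {α : Type} {l : Filter α} {f f₁ f₂ : α → ℝ → ℝ} {t : ℝ}

theorem dyn_box {p : α × ℝ → Prop} (h : ∀ᶠ x in l ×ˢ 𝓝 t, p x) :
    ∃ δ > 0, ∀ᶠ m in l, ∀ s ∈ Metric.ball t δ, p (m, s) := by
  obtain ⟨pa, h1, δ, hδ, h2⟩ := Metric.eventually_prod_nhds_iff.1 h
  exact ⟨δ, hδ, h1.mono fun m hm s hs => h2 hm hs⟩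

theorem dyn_unbox {p : α × ℝ → Prop} {δ : ℝ} (hδ : 0 < δ)
    (h : ∀ᶠ m in l, ∀ s ∈ Metric.ball t δ, p (m, s)) : ∀ᶠ x in l ×ˢ 𝓝 t, p x :=
  (h.prod_mk (Metric.ball_mem_nhds t hδ)).mono fun x hx => hx.1 x.2 hx.2

/-- local Landau inequality -/
theorem dyn_landau (h1 : ∀ᶠ m in l, ∀ s, HasDerivAt (f m) (f₁ m s) s)
    (h2 : ∀ᶠ m in l, ∀ s, HasDerivAt (f₁ m) (f₂ m s) s)
    (b0 : (fun p : α × ℝ => f p.1 p.2) =O[l ×ˢ 𝓝 t] fun _ => (1 : ℝ))
    (b2 : (fun p : α × ℝ => f₂ p.1 p.2) =O[l ×ˢ 𝓝 t] fun _ => (1 : ℝ)) :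
    (fun p : α × ℝ => f₁ p.1 p.2) =O[l ×ˢ 𝓝 t] fun _ => (1 : ℝ) := by
  obtain ⟨A, hA⟩ := b0.bound
  obtain ⟨B, hB⟩ := b2.bound
  obtain ⟨δ, hδ, h⟩ := dyn_box (hA.and hB)
  refine IsBigO.of_bound (2 * A / (δ / 2) + |B| * (2 * δ)) (dyn_unbox hδ ?_)
  filter_upwards [h, h1, h2] with m hm d1 d2 s hs
  simp only [norm_one, mul_one] at hm ⊢
  obtain ⟨ξ, hξ, e⟩ := exists_hasDerivAt_eq_slope (f m) (f₁ m) (a := t) (b := t + δ / 2)
    (by linarith) (fun x _ => (d1 x).continuousAt.continuousWithinAt) fun x _ => d1 x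
  have hξ' : ξ ∈ Metric.ball t δ := by
    rw [Real.ball_eq_Ioo]; exact ⟨by linarith [hξ.1], by linarith [hξ.2]⟩
  have a1 := (hm t (Metric.mem_ball_self hδ)).1
  have a2 := (hm (t + δ / 2) (by rw [Real.ball_eq_Ioo]; exact ⟨by linarith, by linarith⟩)).1
  have a3 : ‖f₁ m ξ‖ ≤ 2 * A / (δ / 2) := by
    rw [e, add_sub_cancel_left, norm_div, Real.norm_of_nonneg (half_pos hδ).le]
    gcongr
    exact (norm_sub_le _ _).trans (by linarith)
  have a4 := (convex_ball t δ).norm_image_sub_le_of_norm_hasDerivWithin_le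
    (fun x _ => (d2 x).hasDerivWithinAt) (fun x hx => (hm x hx).2.trans (le_abs_self B)) hξ' hs
  have a5 : ‖s - ξ‖ ≤ 2 * δ := by
    rw [Real.ball_eq_Ioo] at hs hξ'
    rw [Real.norm_eq_abs, abs_le]
    exact ⟨by linarith [hs.1, hξ'.2], by linarith [hs.2, hξ'.1]⟩
  have a6 := norm_add_le (f₁ m ξ) (f₁ m s - f₁ m ξ)
  rw [add_sub_cancel] at a6
  have a7 := mul_le_mul_of_nonneg_left a5 (abs_nonneg B)
  linarith

/-- pointwise convergence and a local bound on the derivatives give continuous convergence -/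
theorem dyn_joint {y : ℝ} (h1 : ∀ᶠ m in l, ∀ s, HasDerivAt (f m) (f₁ m s) s)
    (b1 : (fun p : α × ℝ => f₁ p.1 p.2) =O[l ×ˢ 𝓝 t] fun _ => (1 : ℝ))
    (hy : Tendsto (f · t) l (𝓝 y)) : Tendsto (fun p : α × ℝ => f p.1 p.2) (l ×ˢ 𝓝 t) (𝓝 y) := by
  obtain ⟨A, hA⟩ := b1.bound
  obtain ⟨δ, hδ, h⟩ := dyn_box hA
  have h0 : Tendsto (fun p : α × ℝ => p.2 - t) (l ×ˢ 𝓝 t) (𝓝 0) := by
    simpa using (tendsto_snd (f := l) (g := 𝓝 t)).sub_const t
  have h2 : (fun p : α × ℝ => f p.1 p.2 - f p.1 t) =O[l ×ˢ 𝓝 t] fun p => p.2 - t := by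
    refine IsBigO.of_bound A (dyn_unbox hδ ?_)
    filter_upwards [h, h1] with m hm d1 s hs
    exact (convex_ball t δ).norm_image_sub_le_of_norm_hasDerivWithin_le
      (fun x _ => (d1 x).hasDerivWithinAt) (fun x hx => by simpa using hm x hx)
      (Metric.mem_ball_self hδ) hs
  simpa using (h2.trans_tendsto h0).add (hy.comp tendsto_fst)

theorem dyn_deriv [l.NeBot] {g : ℝ → ℝ} {y : ℝ} (h1 : ∀ᶠ m in l, ∀ s, HasDerivAt (f m) (f₁ m s) s)
    (hg : ∀ s, Tendsto (f · s) l (𝓝 (g s)))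
    (hy : Tendsto (fun p : α × ℝ => f₁ p.1 p.2) (l ×ˢ 𝓝 t) (𝓝 y)) : HasDerivAt g y t :=
  hasDerivAt_of_tendstoUniformlyOnFilter (g' := fun _ => y) (tendsto_prod_filter_iff.1 hy)
    ((h1.prod_inl _).mono fun p hp => hp p.2) (Eventually.of_forall hg)

theorem dyn_ultra {V : Type} [NormedAddCommGroup V] [ProperSpace V] (𝒰 : Ultrafilter α) {u : α → V}
    {A : ℝ} (h : ∀ᶠ m in 𝒰, ‖u m‖ ≤ A) : ∃ y, Tendsto u 𝒰 (𝓝 y) := by
  obtain ⟨y, -, hy⟩ := (isCompact_closedBall (0 : V) A).ultrafilter_le_nhds' (𝒰.map u)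
    (h.mono fun m hm => mem_closedBall_zero_iff.2 hm)
  exact ⟨y, hy⟩

theorem dyn_ultra' (𝒰 : Ultrafilter α)
    (b0 : (fun p : α × ℝ => f p.1 p.2) =O[𝒰 ×ˢ 𝓝 t] fun _ => (1 : ℝ)) :
    ∃ y, Tendsto (f · t) 𝒰 (𝓝 y) := by
  obtain ⟨A, hA⟩ := b0.bound
  obtain ⟨δ, hδ, h⟩ := dyn_box hA
  exact dyn_ultra 𝒰 (h.mono fun m hm => hm t (Metric.mem_ball_self hδ))

/-- limit of solutions of a system of linear second order equations -/
theorem dyn_lim {J : Type} (𝒰 : Ultrafilter α) {c c₁ : α → J → ℝ → ℝ} {S : J → Finset J}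
    {A : α → J → J → ℝ → ℝ} {A' : J → J → ℝ → ℝ} {q : ℝ → ℝ} (hq : Continuous q)
    (hA : ∀ k k₁ t, Tendsto (fun p : α × ℝ => A p.1 k k₁ p.2) (𝒰 ×ˢ 𝓝 t) (𝓝 (A' k k₁ t)))
    (hd : ∀ k, ∀ᶠ m in 𝒰, ∀ t, HasDerivAt (c m k) (c₁ m k t) t ∧
      HasDerivAt (c₁ m k) (∑ k₁ ∈ S k, A m k k₁ t * c m k₁ t + q t * c m k t) t)
    (hb : ∀ k t, (fun p : α × ℝ => c p.1 k p.2) =O[𝒰 ×ˢ 𝓝 t] fun _ => (1 : ℝ)) :
    ∃ g g₁ : J → ℝ → ℝ, (∀ k t, Tendsto (c · k t) 𝒰 (𝓝 (g k t))) ∧ ∀ k t,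
      HasDerivAt (g k) (g₁ k t) t ∧
        HasDerivAt (g₁ k) (∑ k₁ ∈ S k, A' k k₁ t * g k₁ t + q t * g k t) t := by
  have d1 := fun k => (hd k).mono fun m h t => (h t).1
  have d2 := fun k => (hd k).mono fun m h t => (h t).2
  have hq' : ∀ t, Tendsto (fun p : α × ℝ => q p.2) (𝒰 ×ˢ 𝓝 t) (𝓝 (q t)) := fun t =>
    (hq.tendsto t).comp tendsto_snd
  have b2 : ∀ k t, (fun p : α × ℝ => ∑ k₁ ∈ S k, A p.1 k k₁ p.2 * c p.1 k₁ p.2 +
      q p.2 * c p.1 k p.2) =O[𝒰 ×ˢ 𝓝 t] fun _ => (1 : ℝ) := fun k t =>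
    (IsBigO.fun_sum fun k₁ _ => (((hA k k₁ t).isBigO_one ℝ).mul (hb k₁ t)).congr_right
      fun _ => one_mul _).add
      ((((hq' t).isBigO_one ℝ).mul (hb k t)).congr_right fun _ => one_mul _)
  have b1 := fun k t => dyn_landau (d1 k) (d2 k) (hb k t) (b2 k t)
  choose g hg using fun k t => dyn_ultra' (f := fun m => c m k) 𝒰 (hb k t)
  choose g₁ hg₁ using fun k t => dyn_ultra' (f := fun m => c₁ m k) 𝒰 (b1 k t)
  have j0 := fun k t => dyn_joint (d1 k) (b1 k t) (hg k t)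
  exact ⟨g, g₁, hg, fun k t =>
    ⟨dyn_deriv (d1 k) (hg k) (dyn_joint (d2 k) (b2 k t) (hg₁ k t)),
      dyn_deriv (d2 k) (hg₁ k) ((tendsto_finsetSum _ fun k₁ _ => (hA k k₁ t).mul (j0 k₁ t)).add
        ((hq' t).mul (j0 k t)))⟩⟩

theorem dyn_pulse (s : ℝ) : |pulse s| ≤ 1 := by
  rw [pulse, abs_of_nonneg (mul_nonneg (Real.smoothTransition.nonneg _)
    (Real.smoothTransition.nonneg _))]
  exact mul_le_one₀ (Real.smoothTransition.le_one _) (Real.smoothTransition.nonneg _)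
    (Real.smoothTransition.le_one _)

theorem dyn_cpath {E : Type} [NormedAddCommGroup E] [NormedSpace ℝ E] {z : ℝ → E} {κ : α → ℕ → E}
    {κ' : ℕ → E} (h : ∀ j, Tendsto (κ · j) l (𝓝 (κ' j))) (hc : Continuous (cpath z κ')) (t : ℝ) :
    Tendsto (fun p : α × ℝ => cpath z (κ p.1) p.2) (l ×ˢ 𝓝 t) (𝓝 (cpath z κ' t)) := by
  have h1 : Tendsto (fun m => ∑ j ∈ Finset.range (⌊t + 1⌋₊ + 1), ‖κ m j - κ' j‖) l (𝓝 0) := by
    simpa using tendsto_finsetSum (Finset.range (⌊t + 1⌋₊ + 1))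
      fun j _ => tendsto_iff_norm_sub_tendsto_zero.1 (h j)
  have h2 : Tendsto (fun p : α × ℝ => cpath z (κ p.1) p.2 - cpath z κ' p.2) (l ×ˢ 𝓝 t) (𝓝 0) := by
    refine squeeze_zero_norm' (dyn_unbox one_pos (Eventually.of_forall fun m s hs => ?_))
      (h1.comp tendsto_fst)
    rw [Real.ball_eq_Ioo] at hs
    simp only [cpath, add_sub_add_left_eq_sub, ← smul_sub, norm_smul, Function.comp]
    refine (mul_le_of_le_one_left (norm_nonneg _) (dyn_pulse _)).trans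
      (Finset.single_le_sum (f := fun j => ‖κ m j - κ' j‖) (fun _ _ => norm_nonneg _) ?_)
    exact Finset.mem_range.2 (Nat.lt_succ_of_le (Nat.floor_mono hs.2.le))
  simpa using h2.add ((hc.tendsto t).comp tendsto_snd)

end lim

theorem dyn_mem_low {n : ℕ} {J : Type} (b : Base n J) {N : ℕ} {k : J} :
    k ∈ b.low N ↔ b.deg k ≤ N := by
  simp [Base.low]

theorem dyn_qe_zero {n : ℕ} {J : Type} {b : Base n J} {d : ℕ} {B : H J →L[ℝ] H J}
    (h : b.Banded d B) {k k₁ : J} (hk : k₁ ∉ b.low (b.deg k + d)) : b.qe B k k₁ = 0 := by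
  rw [dyn_mem_low, not_le] at hk
  rw [Base.qe, h k k₁ (Or.inl hk), mul_zero]

theorem dyn_qe_cont {n : ℕ} {J : Type} (b : Base n J) (k k₁ : J) :
    Continuous fun B => b.qe B k k₁ := by
  refine continuous_const.mul ?_
  exact (lp.evalCLM ℝ (fun _ : J => ℝ) 2 k).continuous.comp
    (continuous_id.clm_apply continuous_const)

variable {n : ℕ} {E : Type} [NormedAddCommGroup E] [NormedSpace ℝ E] [FiniteDimensional ℝ E]
  {ι : Type} [Fintype ι] [DecidableEq ι] {J : ι → Type} {F : Fam n E ι J} {M : ι → ℕ} {U : Set E}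
  {good : ∀ i, Finset (Fin (M i))} {abar : ι → ℝ} (Lp : Loop F M U good abar) {𝒞 : Set E} {ρ : ℝ}

theorem dyn (hS : Setup F Lp.z 𝒞 ρ) (hM : ∀ i, 0 < M i) {η : ℝ} (hη : 0 < η) :
    ∃ K T₀ ε : ℝ, 0 < K ∧ 0 < ε ∧ ∀ t₀ T : ℕ, T₀ ≤ T → ∀ zi q, TimeData n Lp.z 𝒞 t₀ T zi q →
      ∃ (z : ℝ → E) (c c₁ : ∀ i, Fin (M i) → J i → ℝ → ℝ) (C : ℝ),
        ContDiff ℝ ∞ z ∧ (∀ t, z t ∈ 𝒞) ∧ (∀ t : ℝ, t ≤ t₀ → z t = zi t) ∧
        (∀ t : ℝ, t₀ ≤ t → ‖deriv z t‖ ≤ K * th t₀ T t ^ 4 ∧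
          ‖deriv (deriv z) t‖ ≤ K * th t₀ T t ^ 4) ∧
        (∃ i ζ₁ ζ₂, F.B i ζ₁ ≠ F.B i ζ₂ ∧ MapClusterPt ζ₁ atTop z ∧ MapClusterPt ζ₂ atTop z) ∧
        (∀ i, ∀ a ∈ good i, (F.b i).Coef (fun t => F.B i (z t)) q (c i a) (c₁ i a) ∧
          ∀ k t, 0 ≤ t → |c i a k t| ≤
            C * Real.exp ((abar i + ((n : ℝ) - 2) / 2 + η) * t - ε * (F.b i).deg k)) ∧
        ∃ t₁ : ℝ, 0 ≤ t₁ ∧ ∀ i (v : Fin (M i) → ℝ), (∀ k, ∑ a ∈ good i, v a * c i a k t₁ = 0) →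
          ∀ a ∈ good i, v a = 0 := by
  obtain ⟨K, T₀, ε, hK, hε, H⟩ := finite_horizon Lp hS hM hη
  obtain ⟨K', T₁, hK', H'⟩ := cpath_props Lp hS K hK
  refine ⟨K', max T₀ T₁, ε, hK', hε, fun t₀ T hT zi q hD => ?_⟩
  obtain ⟨C, hC⟩ := H t₀ T (le_of_max_le_left hT) zi q hD
  choose N κ c c₁ hN hκ hd hz hl hb hlow using fun m => hC (m + (t₀ + T)) (Nat.le_add_left _ _)
  let 𝒰 : Ultrafilter ℕ := Ultrafilter.of atTop
  have hU : ∀ r : ℕ, ∀ᶠ m in 𝒰, r ≤ m := fun r => Ultrafilter.of_le _ (eventually_ge_atTop r)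
  have hU' : ∀ t : ℝ, ∀ᶠ m in 𝒰, t ≤ (m + (t₀ + T) : ℕ) := fun t => (hU ⌈t⌉₊).mono fun m hm =>
    (Nat.le_ceil t).trans (Nat.cast_le.2 (hm.trans (Nat.le_add_right _ _)))
  choose κ' hκ' using fun j => dyn_ultra 𝒰 (u := fun m => κ m j) (A := |K * th t₀ T j ^ 4|)
    (Eventually.of_forall fun m => by
      rcases lt_or_ge j (t₀ + T) with h | h
      · rw [(hκ m).1 j h, norm_zero]; exact abs_nonneg _
      · exact ((hκ m).2 j (by omega)).trans (le_abs_self _))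
  have hc : CtrlSeq K t₀ T κ' :=
    ⟨fun j hj => tendsto_nhds_unique (hκ' j) (by simp [(hκ _).1 j hj]),
      fun j hj => le_of_tendsto' (hκ' j).norm fun m => (hκ m).2 j hj⟩
  obtain ⟨z1, z2, z3, z4, z5⟩ := H' t₀ T (le_of_max_le_right hT) zi q hD κ' hc
  have key := fun i a (ha : a ∈ good i) => dyn_lim 𝒰 (c := fun m => c m i a)
    (c₁ := fun m => c₁ m i a) (S := fun k => (F.b i).low ((F.b i).deg k + F.d))
    (A := fun m k k₁ t => (F.b i).qe (F.B i (cpath (zb zi Lp.z t₀ T) (κ m) t)) k k₁)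
    hD.q_smooth.continuous
    (fun k k₁ t => (((dyn_qe_cont (F.b i) k k₁).comp (F.smooth i).continuous).tendsto _).comp
      (dyn_cpath hκ' z1.continuous t))
    (fun k => (hU ((F.b i).deg k + F.d)).mono fun m hm t => by
      have h1 := hN m
      obtain ⟨h2, h3⟩ := hd m i a k ((dyn_mem_low _).2 (by omega)) t
      refine ⟨h2, ?_⟩
      rwa [← Finset.sum_subset (s₁ := (F.b i).low ((F.b i).deg k + F.d))
        (fun x hx => (dyn_mem_low _).2 (by have := (dyn_mem_low _).1 hx; omega))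
        fun x _ hx => by rw [dyn_qe_zero (F.band i _) hx, zero_mul]] at h3)
    (fun k t => by
      have h0 : Continuous fun s : ℝ => C * Real.exp
        ((abar i + ((n : ℝ) - 2) / 2 + η) * max s 0 - ε * (F.b i).deg k) := by fun_prop
      refine (Asymptotics.IsBigO.of_norm_eventuallyLE (dyn_unbox one_pos ?_)).trans
        (((h0.tendsto t).comp tendsto_snd).isBigO_one ℝ)
      filter_upwards [hU' (t + 1)] with m hm s hs
      rw [Real.ball_eq_Ioo] at hs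
      simp only [Function.comp, Real.norm_eq_abs]
      rcases le_total s 0 with h | h
      · rw [max_eq_right h, hl m i a k s h, abs_mul, abs_of_pos (Real.exp_pos _)]
        refine (mul_le_of_le_one_right (abs_nonneg _) (Real.exp_le_one_iff.2
          (mul_nonpos_of_nonneg_of_nonpos ?_ h))).trans
          (hb m i a ha k 0 ⟨le_rfl, Nat.cast_nonneg _⟩)
        have : (3 : ℝ) ≤ n := by exact_mod_cast (F.b i).hn
        have : (0 : ℝ) ≤ (F.b i).deg k := Nat.cast_nonneg _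
        unfold Base.rate
        linarith
      · rw [max_eq_left h]
        exact hb m i a ha k s ⟨h, hs.2.le.trans hm⟩)
  choose! g g₁ hg hg' using key
  refine ⟨_, g, g₁, C, z1, z2, z3, z4, z5, fun i a ha => ⟨⟨fun k t => (hg' i a ha k t).1,
    fun k t => ?_, fun k t ht => ?_⟩, fun k t ht => ?_⟩, (t₀ + T : ℕ), Nat.cast_nonneg _,
    fun i v hv a ha => ?_⟩
  · rw [tsum_eq_sum (s := (F.b i).low ((F.b i).deg k + F.d))
      fun x hx => by rw [dyn_qe_zero (F.band i _) hx, zero_mul]]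
    exact (hg' i a ha k t).2
  · exact tendsto_nhds_unique (hg i a ha k t)
      (((hg i a ha k 0).mul_const _).congr fun m => (hl m i a k t ht).symm)
  · exact le_of_tendsto (hg i a ha k t).abs ((hU' t).mono fun m hm => hb m i a ha k t ⟨ht, hm⟩)
  · set D := C * Real.exp ((abar i + ((n : ℝ) - 2) / 2 + η) * (t₀ + T : ℕ)) with hD
    have h1 := tendsto_tsum_of_dominated_convergence (𝓕 := 𝒰)
      (f := fun m k => (∑ a ∈ good i, v a * c m i a k (t₀ + T : ℕ)) ^ 2) (g := fun _ => 0)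
      (((F.b i).summable_poly_exp 0 (add_pos hε hε)).mul_left ((∑ a ∈ good i, |v a| * D) ^ 2))
      (fun k => by
        have := (tendsto_finsetSum (good i) fun a ha =>
          (hg i a ha k (t₀ + T : ℕ)).const_mul (v a)).pow 2
        rwa [hv k, zero_pow two_ne_zero] at this)
      (Eventually.of_forall fun m k => by
        rw [pow_zero, one_mul, add_mul, neg_add, Real.exp_add, ← sq, ← mul_pow, norm_pow]
        refine pow_le_pow_left₀ (norm_nonneg _) ((norm_sum_le _ _).trans ?_) 2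
        rw [Finset.sum_mul]
        refine Finset.sum_le_sum fun a ha => ?_
        rw [norm_mul, mul_assoc, hD, mul_assoc, ← Real.exp_add]
        exact mul_le_mul_of_nonneg_left (hb m i a ha k _ ⟨Nat.cast_nonneg _,
          Nat.cast_le.2 (Nat.le_add_left _ _)⟩) (norm_nonneg _))
    have h2 : ∑ a ∈ good i, v a ^ 2 ≤ C * ∑' _ : J i, (0 : ℝ) := by
      refine ge_of_tendsto' (h1.const_mul C) fun m => ?_
      have := hlow m i fun a => if a ∈ good i then v a else 0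
      simp only [ite_pow, ite_mul, zero_mul, Finset.sum_ite_mem, Finset.univ_inter,
        zero_pow two_ne_zero] at this
      rwa [tsum_eq_sum (s := (F.b i).low (N m)) fun k hk => by simp [hz m i _ k _ hk]]
    rw [tsum_zero, mul_zero] at h2
    exact pow_eq_zero_iff two_ne_zero |>.1 (le_antisymm ((Finset.single_le_sum
      (f := fun a => v a ^ 2) (fun _ _ => sq_nonneg _) ha).trans h2) (sq_nonneg _))

end Crest.Agent.R202
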