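import Crest.Agent.R202.Indep
import Crest.Agent.R202.GmSmall
import Crest.Agent.R202.Ctrl
import Crest.Agent.R202.Cross
import Crest.Agent.R202.LoopEx
import Crest.Agent.R202.Dyn
import Crest.Agent.R202.RicPos
import Crest.Agent.R202.Avr
import Crest.Agent.R202.NegSec
import Crest.Agent.R202.Beta

/-!
# The main construction

Order of choices: `β₁ = (1+b)/2`, `ε₀` (`ricci_pos`), `ε₁` (`gSmall_box`, `mqLe_box` with `min ε (1/2)`), `c₁ = min (ε₁/2) (1/10)`, `D₀` (`cross`); then `M = cnt a₁`, `j₀ = cnt a₀`,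
`θ₀`, `om, N, pi` (`exists_ctrl`), `ρ`, `𝒞 = box`, the loop in the tube of radius `ρ' = min (ε₁/4) (ρ/2)`, `K` (`dyn`), `C, k₀` (`ricci_pos`), `A = C (K+1)²`, `m` large.
-/

set_option autoImplicit false

noncomputable section

open scoped InnerProductSpace ContDiff
open Set Filter Topology
open MvPolynomial Real
open Crest.GeometryTopology.CoordMetric hiding pderiv
open Crest.GeometryTopology.ChartCurvature

namespace Crest.Agent.R202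

variable {r N : ℕ}

/-- everything the two statements ask of the metric -/
structure Good {n : ℕ} (g : MetricField n) (v : ℝ) : Prop where
  riem : IsRiemannianOn g univ
  complete : IsCompleteOn g univ
  eucl : ∃ s : ℝ, 0 < s ∧ ∀ x : Vec n, ‖x‖ < s → g x = 1
  nonneg : RicciNonnegOn g univ
  pos : ∃ R : ℝ, ∀ x : Vec n, R < ‖x‖ → ∀ w : Vec n, w ≠ 0 →
    0 < ∑ i, ∑ j, ricci g x i j * w i * w j
  avr : HasAsymptoticVolumeRatio g v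
  neg : ∃ p : ℕ → Vec n, Tendsto (fun j => ‖p j‖) atTop atTop ∧ ∀ j, ∃ w : Vec n,
    0 < gramDet g (p j) (p j) w ∧ secNumer g (p j) (p j) w < 0

theorem box_mono {N : ℕ} {e e₁ ρ ρ₁ : ℝ} (h : e ≤ e₁) (h₁ : ρ ≤ ρ₁) : box N e ρ ⊆ box N e₁ ρ₁ :=
  fun _ hζ => ⟨fun a => (hζ.1 a).trans h, fun a => (hζ.2 a).trans h₁⟩

theorem box_eq (N : ℕ) (e ρ : ℝ) : box N e ρ =
    Set.pi univ fun a => Icc (-(Sum.elim (fun _ => e) (fun _ => ρ) a)) (Sum.elim (fun _ => e) (fun _ => ρ) a) := by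
  ext ζ
  simp only [box, mem_setOf_eq, Set.mem_pi, mem_univ, true_imp_iff, mem_Icc, ← abs_le, Sum.forall (p := fun a => |ζ a| ≤ _),
    Sum.elim_inl, Sum.elim_inr]

theorem isCompact_box (N : ℕ) (e ρ : ℝ) : IsCompact (box N e ρ) := by
  rw [box_eq]; exact isCompact_univ_pi fun _ => isCompact_Icc

theorem convex_box (N : ℕ) (e ρ : ℝ) : Convex ℝ (box N e ρ) := by
  rw [box_eq]; exact convex_pi fun _ _ => convex_Icc _ _

theorem bpt_add (N : ℕ) (θ₀ c₁ s : ℝ) : bpt N θ₀ 0 + s • bpt N 0 c₁ = bpt N θ₀ (s * c₁) := by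
  funext a
  rcases a with a | a
  · fin_cases a <;> simp [bpt]
  · simp [bpt]

theorem ball_sub_box {N : ℕ} {θ₀ c₁ e ρ ρ' : ℝ} (h₀ : 0 < θ₀) (h₁ : 0 < c₁) (h₂ : θ₀ ≤ e / 2)
    (h₃ : c₁ ≤ e / 2) (h₄ : ρ' ≤ e / 4) (h₅ : ρ' ≤ ρ / 2) {ζ : Par N}
    (hζ : ζ ∈ tube (bpt N θ₀ 0) (bpt N 0 c₁) ρ') : Metric.closedBall ζ ρ' ⊆ box N e ρ := by
  obtain ⟨s, hs, h⟩ := hζ
  rw [bpt_add] at h
  intro x hx
  rw [Metric.mem_closedBall, dist_eq_norm] at hx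
  have key : ∀ a, |x a - bpt N θ₀ (s * c₁) a| ≤ 2 * ρ' := fun a => by
    have h1 := norm_le_pi_norm (x - ζ) a
    have h2 := norm_le_pi_norm (ζ - bpt N θ₀ (s * c₁)) a
    simp only [Pi.sub_apply, Real.norm_eq_abs] at h1 h2
    have := abs_sub_le (x a) (ζ a) (bpt N θ₀ (s * c₁) a)
    linarith
  have hsc : 0 ≤ s * c₁ ∧ s * c₁ ≤ c₁ := ⟨mul_nonneg hs.1 h₁.le, by nlinarith [hs.2]⟩
  refine ⟨fun a => ?_, fun a => ?_⟩
  · have := abs_le.1 (key (.inl a))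
    fin_cases a <;> simp [bpt] at this ⊢ <;> rw [abs_le] <;> constructor <;> linarith [this.1, this.2]
  · have := key (.inr a)
    simp [bpt] at this
    linarith

theorem exists_pos_le {ι : Type} [Fintype ι] (f : ι → ℝ) (hf : ∀ i, 0 < f i) {a : ℝ} (ha : 0 < a) :
    ∃ x, 0 < x ∧ x ≤ a ∧ ∀ i, x ≤ f i := by
  have h : ∀ᶠ x in 𝓝[>] (0 : ℝ), x ≤ a ∧ ∀ i, x ≤ f i :=
    ((eventually_le_nhds ha).and (eventually_all.2 fun i => eventually_le_nhds (hf i))).filter_mono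
      nhdsWithin_le_nhds
  obtain ⟨x, hx, hx'⟩ := (h.and self_mem_nhdsWithin).exists
  exact ⟨x, hx', hx⟩

theorem exists_m {K k₀ : ℝ} (hk : 0 < k₀) : ∃ m₀ : ℕ, ∀ m : ℕ, m₀ ≤ m → ∀ t : ℝ, m ≤ t →
    K * th (3 * m : ℕ) (4 * m : ℕ) t ^ 4 ≤ k₀ := by
  have h1 : Tendsto (fun x : ℝ => |K| * (x ^ (-(1 / 7 : ℝ))) ^ 4) atTop (𝓝 (|K| * 0 ^ 4)) :=
    ((tendsto_rpow_neg_atTop (by norm_num)).pow 4).const_mul _
  have h2 : ∀ᶠ x : ℝ in atTop, |K| * (x ^ (-(1 / 7 : ℝ))) ^ 4 ≤ k₀ :=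
    h1.eventually (eventually_le_nhds (by simpa using hk))
  obtain ⟨x₀, hx₀⟩ := eventually_atTop.1 h2
  refine ⟨⌈x₀⌉₊, fun m hm t ht => ?_⟩
  have h3 : x₀ ≤ m := (Nat.le_ceil x₀).trans (by exact_mod_cast hm)
  have h4 := hx₀ (t - (3 * m : ℕ) + (4 * m : ℕ)) (by
    push_cast; have : (0 : ℝ) ≤ m := Nat.cast_nonneg m; linarith)
  refine le_trans ?_ h4
  exact mul_le_mul_of_nonneg_right (le_abs_self K) (by positivity)

theorem card_good (M j₀ : ℕ) :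
    (Finset.univ.filter fun a : Fin M => j₀ ≤ (a : ℕ)).card = M - j₀ := by
  rw [← Nat.card_Ico, ← Finset.card_image_of_injective _ Fin.val_injective]
  congr 1
  ext q
  simp only [Finset.mem_image, Finset.mem_filter, Finset.mem_univ, true_and, Finset.mem_Ico]
  exact ⟨fun ⟨a, h, e⟩ => e ▸ ⟨h, a.2⟩, fun h => ⟨⟨q, h.2⟩, h.1, rfl⟩⟩

theorem exists_rank (r : ℕ) {a₀ a₁ q : ℕ} (h : a₀ ≤ a₁) (h₀ : cnt r a₀ ≤ q) (h₁ : q < cnt r a₁) :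
    ∃ a, a₀ ≤ a ∧ a + 1 ≤ a₁ ∧ cnt r a ≤ q ∧ q < cnt r (a + 1) := by
  induction a₁, h using Nat.le_induction with
  | base => omega
  | succ a ha ih =>
    by_cases hq : q < cnt r a
    · obtain ⟨a', h1, h2, h3⟩ := ih hq
      exact ⟨a', h1, by omega, h3⟩
    · exact ⟨a, ha, le_rfl, by omega, h₁⟩

theorem core (r N : ℕ) {b ε ϵ : ℝ} (hb : 0 < b) (hb₁ : b < 1) (hε : 0 < ε) (hϵ : 0 < ϵ) : ∃ D₀ : ℕ,
    ∀ (ι : Type) [Fintype ι] [DecidableEq ι] [Nonempty ι] (cl : ι → Cl r (N + 3)),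
      (Function.Injective fun i => (cl i).j) → ∀ (a₀ a₁ : ι → ℕ) (k : ℕ),
      (∀ i, D₀ ≤ a₀ i ∧ a₀ i < a₁ i ∧
        (r = 2 → ϵ * (((cl i).j : ℝ) + a₁ i) ≤ (cl i).j ∧ ϵ * (((cl i).j : ℝ) + a₁ i) ≤ a₀ i)) →
      (∀ i, (1 + ε) * ∑ a ∈ Finset.Ioc (a₀ i) (a₁ i),
          (mult r a : ℝ) * (((cl i).j : ℝ) + a + ((N : ℝ) + 1) / 2) <
        (∑ a ∈ Finset.Ioc (a₀ i) (a₁ i), (mult r a : ℝ)) *
          (b * (k + ((N : ℝ) + 1) / 2) - ((N : ℝ) + 1) / 2)) →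
      ∀ (κ : ι → Type) [∀ i, Fintype (κ i)] (Y : ∀ i, κ i → MvPolynomial (Fin (N + 3)) ℝ),
      (∀ i a, YOk (cl i).j (Y i a)) → (YInd r fun p : Σ i, κ i => Y p.1 p.2) →
      ∃ g : MetricField (N + 3), Good g (b ^ (N + 2)) ∧
        ∃ f : Fin (∑ i, Fintype.card (κ i) * (cnt r (a₁ i) - cnt r (a₀ i))) → Vec (N + 3) → ℝ,
          LinearIndependent ℝ f ∧ ∀ i, IsHarmonicOn g univ (f i) ∧
            ∃ C : ℝ, ∀ x, |f i x| ≤ C * (1 + riemDist g univ 0 x) ^ k := by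
  classical
  have hβ₀ : 0 < (1 + b) / 2 := by linarith
  have hβ₁ : (1 + b) / 2 < 1 := by linarith
  obtain ⟨ε₀, hε₀, hε₀n, hric⟩ := ricci_pos (N + 3) (by omega) hβ₀ hβ₁
  by_cases hr : (r = 1 ∧ N = 0) ∨ r = 2
  swap
  · refine ⟨0, fun ι _ _ _ cl => ?_⟩
    have := (cl (Classical.arbitrary ι)).ok
    omega
  obtain ⟨ε₁, hε₁, hsm⟩ := gSmall_box r N hr hε₀
  obtain ⟨ε₂, hε₂, hmq⟩ := mqLe_box r (by omega) (ε := min ε (1 / 2)) (by positivity)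
  obtain ⟨e, he, he₁, he₂⟩ : ∃ e : ℝ, 0 < e ∧ e ≤ ε₁ ∧ e ≤ ε₂ :=
    ⟨min ε₁ ε₂, lt_min hε₁ hε₂, min_le_left _ _, min_le_right _ _⟩
  obtain ⟨c₁, hc₁, hc₂, hc₃⟩ : ∃ c₁ : ℝ, 0 < c₁ ∧ c₁ ≤ e / 2 ∧ c₁ ≤ 1 / 10 :=
    ⟨min (e / 2) (1 / 10), by positivity, min_le_left _ _, min_le_right _ _⟩
  obtain ⟨D₀, hD₀⟩ := cross r (N + 3) hc₁ hc₃ hϵ
  refine ⟨D₀ + 1, ?_⟩
  intro ι _ _ _ cl hinj a₀ a₁ k ha havg κ _ Y hY hI
  choose θ₁ hθ₁ hcr using fun i => hD₀ (cl i) (a₁ i)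
  obtain ⟨θ₀, hθ₀, hθe, hθi⟩ := exists_pos_le θ₁ hθ₁ (a := min (e / 2) (1 / 20)) (by positivity)
  have hθe₁ : θ₀ ≤ e / 2 := hθe.trans (min_le_left _ _)
  have hθe₂ : θ₀ ≤ 1 / 20 := hθe.trans (min_le_right _ _)
  set M : ι → ℕ := fun i => cnt r (a₁ i) with hM
  set j₀ : ι → ℕ := fun i => cnt r (a₀ i) with hj₀
  obtain ⟨om, Np, pi, hom, hctrl⟩ := exists_ctrl cl hinj hθ₀ hc₁ (by linarith)
    (fun i => 2 * (cl i).base.ev 1 univ (M i))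
  obtain ⟨ρ₁, hρ₁, hsm'⟩ := hsm Np om pi hom
  obtain ⟨ρ₂, hρ₂, hmq'⟩ := hmq Np om pi hom
  obtain ⟨ρ, hρ, hρa, hρb⟩ : ∃ ρ : ℝ, 0 < ρ ∧ ρ ≤ ρ₁ ∧ ρ ≤ ρ₂ :=
    ⟨min ρ₁ ρ₂, lt_min hρ₁ hρ₂, min_le_left _ _, min_le_right _ _⟩
  obtain ⟨ρ', hρ', hρ'a, hρ'b⟩ : ∃ ρ' : ℝ, 0 < ρ' ∧ ρ' ≤ e / 4 ∧ ρ' ≤ ρ / 2 :=
    ⟨min (e / 4) (ρ / 2), by positivity, min_le_left _ _, min_le_right _ _⟩
  set F := fam cl om pi with hF
  set 𝒞 := box Np e ρ with h𝒞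
  have hball : ∀ ζ ∈ tube (bpt Np θ₀ 0) (bpt Np 0 c₁) ρ', Metric.closedBall ζ ρ' ⊆ 𝒞 :=
    fun ζ hζ => ball_sub_box hθ₀ hc₁ hθe₁ hc₂ hρ'a hρ'b hζ
  have htube : ∀ ζ ∈ tube (bpt Np θ₀ 0) (bpt Np 0 c₁) ρ', ζ ∈ 𝒞 :=
    fun ζ hζ => hball ζ hζ (Metric.mem_closedBall_self hρ'.le)
  have hmqC : ∀ ζ ∈ 𝒞, MqLe r (tripζ r om pi ζ) (min ε (1 / 2)) :=
    fun ζ hζ => hmq' ζ (box_mono he₂ hρb hζ)
  have hadm : ∀ i, ∀ ζ ∈ 𝒞, Adm (F.B i ζ) :=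
    fun i ζ hζ => (cl i).adm_Aop (hmqC ζ hζ) (min_le_right _ _)
  have hsmC : ∀ ζ ∈ 𝒞, GSmall (Gm r (tripζ r om pi ζ) : MetricField (N + 3)) ε₀ :=
    fun ζ hζ => hsm' ζ (box_mono he₁ hρa hζ)
  have hMs : ∀ i, (M i : ℝ) - j₀ i = ∑ a ∈ Finset.Ioc (a₀ i) (a₁ i), (mult r a : ℝ) := fun i => by
    simp only [hM, hj₀, cnt_sub r (ha i).2.1.le]; push_cast; ring
  have hj₀M : ∀ i, j₀ i + 2 ≤ M i := fun i => by
    have h1 : mult r (a₁ i) ≤ ∑ a ∈ Finset.Ioc (a₀ i) (a₁ i), mult r a :=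
      Finset.single_le_sum (f := mult r) (fun _ _ => Nat.zero_le _)
        (Finset.mem_Ioc.2 ⟨(ha i).2.1, le_rfl⟩)
    have h2 : 2 ≤ mult r (a₁ i) := by
      have := (ha i).2.1
      unfold mult; split_ifs <;> omega
    simp only [hM, hj₀, cnt_sub r (ha i).2.1.le]; omega
  have hMpos : ∀ i, (0 : ℝ) < (M i : ℝ) - j₀ i := fun i => by
    have : ((j₀ i + 2 : ℕ) : ℝ) ≤ M i := by exact_mod_cast hj₀M i
    push_cast at this; linarith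
  set abar : ι → ℝ := fun i => (1 + ε) * (∑ a ∈ Finset.Ioc (a₀ i) (a₁ i),
    (mult r a : ℝ) * (((cl i).j : ℝ) + a + ((N : ℝ) + 1) / 2)) / ((M i : ℝ) - j₀ i) with habar
  obtain ⟨Lp⟩ := F.exists_loop M (bpt Np θ₀ 0) (bpt Np 0 c₁) hρ'
    (fun i ζ hζ => hadm i ζ (htube ζ hζ)) (fun s hs => by rw [bpt_add]; exact hctrl s hs) j₀ hj₀M
    (fun i q h₀ h₁ => by
      obtain ⟨a, g1, g2, g3, g4⟩ := exists_rank r (ha i).2.1.le h₀ (Nat.lt_of_succ_lt h₁)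
      obtain ⟨s, hs, h⟩ := hcr i θ₀ hθ₀ (hθi i) om hom a q (by have := (ha i).1; omega) g2
        (fun h2 => by
          obtain ⟨g5, g6⟩ := (ha i).2.2 h2
          have g7 : (a : ℝ) + 1 ≤ a₁ i := by exact_mod_cast g2
          have g8 : (a₀ i : ℝ) ≤ a := by exact_mod_cast g1
          constructor <;> nlinarith) g3 g4
      refine ⟨s, hs, ?_⟩
      rw [bpt_add]
      simpa only [Fam.evu, hF, fam, tripζ_bpt] using h) abar
    (fun i ζ hζ => by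
      rw [habar, mul_div_cancel₀ _ (hMpos i).ne']
      have h1 := (cl i).sum_sqrt_ev (ha i).2.1.le
      have e1 : (((N + 3 : ℕ) : ℝ) - 2) / 2 = ((N : ℝ) + 1) / 2 := by push_cast; ring
      rw [e1] at h1
      refine le_trans ?_ (mul_le_mul_of_nonneg_left h1 (by linarith))
      rw [Finset.mul_sum]
      refine Finset.sum_le_sum fun q _ => ?_
      haveI := (cl i).base.inf
      have h2 : F.evu i ζ q ≤ (1 + ε) * (cl i).base.ev 1 univ q := by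
        refine (cl i).base.ev_le_mul adm_one (hadm i ζ (htube ζ hζ)) infinite_univ (by linarith)
          (fun y _ => ?_) q
        have h3 := (abs_le.1 ((cl i).abs_inner_Aop_le (hmqC ζ (htube ζ hζ)) y)).2
        have h4 : min ε (1 / 2) * ‖y‖ ^ 2 ≤ ε * ‖y‖ ^ 2 :=
          mul_le_mul_of_nonneg_right (min_le_left _ _) (by positivity)
        change ⟪y + (cl i).Aop (tripζ r om pi ζ) y, y⟫_ℝ ≤ (1 + ε) * ⟪y, y⟫_ℝ
        rw [inner_add_left, real_inner_self_eq_norm_sq]; linarith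
      have h5 := (cl i).base.one_le_ev adm_one (S := univ) infinite_univ q
      rw [Real.sqrt_le_left (by positivity), mul_pow, Real.sq_sqrt (by linarith)]
      nlinarith [mul_pos hε hε, mul_pos hε (by linarith : (0 : ℝ) < (cl i).base.ev 1 univ q)])
  have hS : Setup F Lp.z 𝒞 ρ' :=
    ⟨isCompact_box _ _ _, convex_box _ _ _, hadm, hρ', fun σ => hball _ (Lp.mem σ)⟩
  obtain ⟨η, hη, -, hηi⟩ := exists_pos_le
    (fun i => b * (k + ((N : ℝ) + 1) / 2) - ((N : ℝ) + 1) / 2 - abar i) (fun i => by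
      have := havg i
      rw [← hMs i] at this
      rw [sub_pos, habar, div_lt_iff₀ (hMpos i)]; linarith) one_pos
  obtain ⟨K, T₀, εd, hK, hεd, hdyn⟩ := dyn Lp hS (fun i => by have := hj₀M i; omega) hη
  have c₀ := cl (Classical.arbitrary ι)
  have h𝒢 := c₀.gFam om pi
  obtain ⟨Cg, k₀, hCg, hk₀, hpos⟩ := hric (Par Np) _ 𝒞 h𝒢 hS.cpt hsmC
  obtain ⟨m₁, hβ⟩ := exists_beta (N + 3) (by omega) hb (by linarith : b < (1 + b) / 2) hβ₁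
    (A := Cg * (K + 1) ^ 2) (by positivity)
  obtain ⟨m₂, hzi⟩ := exists_zi (Lp.z 0)
  obtain ⟨m₃, hm₃⟩ := exists_m (K := K + 1) hk₀
  obtain ⟨m, g₁, g₂, g₃, g₄, g₅⟩ : ∃ m : ℕ, m₁ ≤ m ∧ m₂ ≤ m ∧ m₃ ≤ m ∧ ⌈T₀⌉₊ ≤ m ∧ 1 ≤ m :=
    ⟨m₁ + m₂ + m₃ + ⌈T₀⌉₊ + 1, by omega, by omega, by omega, by omega, by omega⟩
  have hm0 : (1 : ℝ) ≤ m := by exact_mod_cast g₅
  obtain ⟨β, hP, hβd, hβm, hq₁, hq₂, hq₃, hq₄⟩ := hβ m g₁
  obtain ⟨zi, hz₁, hz₂, hz₃, hz₄, hz₅⟩ := hzi m g₂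
  have h0C : (0 : Par Np) ∈ 𝒞 := ⟨fun _ => by simp [he.le], fun _ => by simp [hρ.le]⟩
  obtain ⟨z, c, c', C, k₁, k₂, k₃, k₄, ⟨i₀, ζ₁, ζ₂, hne, hc₁', hc₂'⟩, k₅, t₁, ht₁, k₆⟩ :=
    hdyn (3 * m) (4 * m) ((Nat.le_ceil T₀).trans (by exact_mod_cast (by omega : ⌈T₀⌉₊ ≤ 4 * m))) zi
      (qpot (N + 3) β) ⟨hz₁, fun t => hS.cvx.segment_subset h0C (htube _ (Lp.mem 0)) (hz₂ t),
        fun t ht => hz₃ t (by linarith), hz₄, hq₁, fun t => (hq₂ t).1, fun t => (hq₂ t).2, hq₃, hq₄⟩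
  have hzm : ∀ t : ℝ, t ≤ m → z t = 0 := fun t ht => by
    rw [k₃ t (by push_cast; linarith), hz₃ t ht]
  have hz0 : ∀ t : ℝ, t ≤ 0 → z t = 0 := fun t ht => hzm t (by linarith)
  have hRad := h𝒢.rad_coneG k₁ hz0 hε₀n fun t => hsmC _ (k₂ t)
  have hder : ∀ t : ℝ, m ≤ t → ‖deriv z t‖ ≤ (K + 1) * th (3 * m : ℕ) (4 * m : ℕ) t ^ 4 ∧
      ‖deriv (deriv z) t‖ ≤ (K + 1) * th (3 * m : ℕ) (4 * m : ℕ) t ^ 4 := fun t ht => by
    have hth : 0 ≤ th (3 * m : ℕ) (4 * m : ℕ) t ^ 4 := by positivity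
    rcases le_or_gt ((3 * m : ℕ) : ℝ) t with h | h
    · have := k₄ t h
      constructor <;> nlinarith [this.1, this.2]
    · have e1 : z =ᶠ[𝓝 t] zi := (eventually_lt_nhds h).mono fun s hs => k₃ s hs.le
      have := hz₅ t ht h.le
      rw [e1.deriv.deriv_eq, e1.deriv_eq]
      constructor <;> nlinarith [this.1, this.2]
  have hPD : ∀ x : Vec (N + 3), Real.exp m ≤ ‖x‖ → ∀ w : Vec (N + 3), w ≠ 0 →
      0 < ∑ i, ∑ j, ricci (met β (coneG (fun ζ : Par Np =>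
        (Gm r (tripζ r om pi ζ) : MetricField (N + 3))) z)) x i j * w i * w j := fun x hx => by
    have hx0 : 0 < ‖x‖ := (Real.exp_pos _).trans_le hx
    have ht : (m : ℝ) ≤ Real.log ‖x‖ := (Real.le_log_iff_exp_le hx0).2 hx
    have hth : 0 < th (3 * m : ℕ) (4 * m : ℕ) (Real.log ‖x‖) := th_pos (by push_cast; linarith)
    refine hpos β b z hP k₁ hz0 k₂ x _ (norm_pos_iff.1 hx0) (by positivity) (hm₃ m g₃ _ ht)
      (hder _ ht).1 (hder _ ht).2 (hβm _ ht).1 (hβd _) ?_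
    rw [(hβm _ ht).2]
    exact le_of_eq (by ring)
  obtain ⟨y, hy, hyne⟩ := (cl i₀).exists_Gm_ne (t := tripζ r om pi ζ₁) (t₁ := tripζ r om pi ζ₂)
    fun h => hne (by simp only [hF, fam, h])
  refine ⟨met β (coneG (fun ζ : Par Np => (Gm r (tripζ r om pi ζ) : MetricField (N + 3))) z),
    ⟨isRiemannian_met hP hRad, complete_met hP hRad,
      ⟨1, one_pos, fun x hx => met_eq_one hP hRad hx.le⟩, fun x _ w => ?_,
      ⟨Real.exp m, fun x hx => hPD x hx.le⟩, avr_met (by omega) hP hRad,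
      exists_neg_planes h𝒢 hS.cpt hε₀n hsmC hP k₁ hz0 k₂ (K := K) (t₀ := (3 * m : ℕ))
        (T := (4 * m : ℕ)) (by push_cast; linarith) k₄ hc₁' hc₂' hy hyne⟩, ?_⟩
  · rcases le_or_gt (Real.exp m) ‖x‖ with h | h
    · by_cases hw : w = 0
      · simp [hw]
      · exact (hPD x h w hw).le
    · refine ricci_nonneg_flat (by omega) hP hRad ?_ w
      filter_upwards [(isOpen_lt continuous_norm continuous_const).mem_nhds h] with x' hx'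
      have : Real.log ‖x'‖ ≤ m := by
        rcases (norm_nonneg x').eq_or_lt with h0 | h0
        · rw [← h0, Real.log_zero]; linarith
        · exact ((Real.log_lt_iff_lt_exp h0).2 hx').le
      simp only [coneG, hzm _ this]
      exact h𝒢.zero _
  · have hind := hfun_indep cl κ Y hY hI M _ c β (t₁ := t₁)
      (C := |C| * Real.exp (b * (k + ((N : ℝ) + 1) / 2) * t₁)) hεd (fun i a ha' k' => by
        refine ((k₅ i a ha').2 k' t₁ ht₁).trans ?_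
        rw [mul_assoc, ← Real.exp_add]
        refine mul_le_mul (le_abs_self C) (Real.exp_le_exp.2 ?_) (Real.exp_pos _).le (abs_nonneg C)
        have h1 := hηi i
        have h2 : abar i + (((N + 3 : ℕ) : ℝ) - 2) / 2 + η ≤ b * (k + ((N : ℝ) + 1) / 2) := by
          push_cast; linarith
        have h3 := mul_le_mul_of_nonneg_right h2 ht₁
        change _ - εd * ((cl i).deg k' : ℝ) ≤ _
        linarith) k₆
    have hcard : Fintype.card (Σ i, κ i × (Finset.univ.filter fun a : Fin (M i) => j₀ i ≤ (a : ℕ))) =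
        ∑ i, Fintype.card (κ i) * (cnt r (a₁ i) - cnt r (a₀ i)) := by
      simp only [Fintype.card_sigma, Fintype.card_prod, Fintype.card_coe, card_good, hM, hj₀]
    let E := (Fintype.equivFinOfCardEq hcard).symm
    refine ⟨_, hind.comp E E.injective, fun p => ?_⟩
    obtain ⟨C₀, p₀, hb₀⟩ := (cl (E p).1).hpol_bound (hY (E p).1 (E p).2.1)
    refine harmonic_hfun (cl (E p).1).base h𝒢 hP k₁ hRad (fun t => F.B (E p).1 (z t))
      (((F.smooth _).of_le le_top).comp k₁) (fun t => F.band _ _) _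
      ((cl (E p).1).hpol_hom (hY _ _)) hb₀
      (fun t k' y' hy' => (cl (E p).1).angLap_hpol (hY _ _) (detOne_tripζ om pi _) k' hy')
      (k₅ _ _ (E p).2.2.2).1 hεd (k₅ _ _ (E p).2.2.2).2 k ?_
    have h1 := hηi (E p).1
    push_cast; linarith

end Crest.Agent.R202
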