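import Crest.Agent.R202.Build
import Crest.Agent.R202.Path
import Crest.Agent.R202.Bvp
import Crest.Agent.R202.Avg
import Crest.Agent.R202.Weighted
import Crest.Agent.R202.FH_Aux
import Crest.Agent.R74.Brouwer

/-!
# The finite-horizon control problem (task C8c)

Constants: `C₀` (`exists_disc`), `C γ' ε` (`exists_frame`, max/min over the classes), `c = Lp.c / (2 √(2 C₀))`, `K₀` (`feedback`), `e₀`
(`exists_bvp`); `t₁ = t₀ + T`, and `exp (-(t - t₀)) ≤ ϑ(t)³` for `t ≥ t₁`.  For a horizon `Th ≥ t₁` fix `N` and the frames `P i`.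
Unknown: `x : (Ico t₁ Th) × (Σ i, Fin (M i) × Fin (M i)) → ℝ`; `κ x m i a c = clamp (Kϑ⁴) (x (m,i,a,c))` if `ctl m a c`, the
transposed entry if `ctl m c a`, `0` otherwise; `Q x t = Qop (B (cpath zb (R κ) t)) (q t)`, `Λ₀ = diag rate`; `exists_bvp` gives
`w x`, and `h x = clamp (Kϑ⁴) fb` is continuous and bounded; `Crest.Agent.R74.brouwer`.  Then `feedback`, `avg_sum`
(`√(l+q) ≤ √l + (n-2)/2`; `√l` is Lipschitz as `l ≥ 1`), `weighted` (at `Th`, `w = ∑ v X` with `|v| ≤ 2‖w‖` by the Gram bound),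
`sol_unique` on `Iic 0` (there `B = 1`, `qe 1 = diag lam`, `lam + ((n-2)/2)² = rate²`).  The separation and switch hypotheses of
`feedback` follow from `Loop.sep`, `Loop.lip` (continuity) and the intermediate value theorem.
-/

set_option autoImplicit false

noncomputable section

open scoped InnerProductSpace ContDiff
open Set Filter Topology

namespace Crest.Agent.R202

theorem fh_growth {W : ℝ → ℝ} {C' α A : ℝ} {t₁ Th : ℕ} (h1 : t₁ ≤ Th) (hC' : 0 ≤ C') (s : ℕ → ℝ)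
    (hs : ∀ m : ℕ, t₁ ≤ m → m ≤ Th → s m ≤ α * ((m : ℝ) - t₁) + A)
    (hW : ∀ m : ℕ, t₁ ≤ m → m ≤ Th → ∀ t ∈ Icc (0 : ℝ) (min (m + 1) Th), W t ≤ C' * Real.exp (s m)) :
    ∀ t ∈ Icc (0 : ℝ) Th, W t ≤ C' * Real.exp (|α| * (t₁ + 1) + A) * Real.exp (α * t) := by
  intro t ht
  have hm1 : t₁ ≤ max t₁ ⌊t⌋₊ := le_max_left _ _
  have hm2 : max t₁ ⌊t⌋₊ ≤ Th := max_le h1 (Nat.floor_le_of_le ht.2)
  have a1 := Nat.lt_floor_add_one t
  have a2 := Nat.floor_le ht.1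
  have a3 : (⌊t⌋₊ : ℝ) ≤ (max t₁ ⌊t⌋₊ : ℕ) := by exact_mod_cast le_max_right _ _
  have a4 : (0 : ℝ) ≤ t₁ := Nat.cast_nonneg _
  have a5 : ((max t₁ ⌊t⌋₊ : ℕ) : ℝ) ≤ t₁ + t := by
    push_cast
    exact max_le (by linarith [ht.1]) (by linarith)
  refine (hW _ hm1 hm2 t ⟨ht.1, le_min (by linarith) ht.2⟩).trans ?_
  rw [mul_assoc, ← Real.exp_add]
  refine mul_le_mul_of_nonneg_left (Real.exp_le_exp.2 ((hs _ hm1 hm2).trans ?_)) hC'
  have a6 : |((max t₁ ⌊t⌋₊ : ℕ) : ℝ) - t₁ - t| ≤ t₁ + 1 := abs_le.2 ⟨by linarith, by linarith⟩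
  have a7 : α * (((max t₁ ⌊t⌋₊ : ℕ) : ℝ) - t₁ - t) ≤ |α| * (t₁ + 1) :=
    (le_abs_self _).trans (by rw [abs_mul]; exact mul_le_mul_of_nonneg_left a6 (abs_nonneg _))
  linarith

theorem fh_cpath_cont {E Z : Type} [NormedAddCommGroup E] [NormedSpace ℝ E] [TopologicalSpace Z]
    {z : ℝ → E} (hz : Continuous z) (κ : Z → ℕ → E) (S : Finset ℕ)
    (h0 : ∀ x m, m ∉ S → κ x m = 0) (hc : ∀ m, Continuous fun x => κ x m) :
    Continuous fun p : Z × ℝ => cpath z (κ p.1) p.2 := by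
  have : (fun p : Z × ℝ => cpath z (κ p.1) p.2) =
      fun p => z p.2 + ∑ m ∈ S, pulse (p.2 - m) • κ p.1 m := by
    funext p
    exact fh_cpath_eq _ _ _ (h0 p.1) _
  rw [this]
  refine (hz.comp continuous_snd).add (continuous_finsetSum _ (fun m _ => ?_))
  exact (contDiff_pulse.continuous.comp (continuous_snd.sub continuous_const)).smul
    ((hc m).comp continuous_fst)

theorem fh_Qop_cont {n : ℕ} {J Z : Type} [TopologicalSpace Z] (b : Base n J) (S : Finset J)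
    {B : Z → H J →L[ℝ] H J} {q : Z → ℝ} (hB : Continuous B) (hq : Continuous q) :
    Continuous fun z => b.Qop S (B z) (q z) := by
  have h := Continuous.comp (f := fun z => (B z, q z)) (b.continuous_Qop S) (hB.prodMk hq)
  simpa only [Function.comp_def] using h

/-- the symmetric control matrix determined by the unstable entries -/
def fhKap {ι : Type} {M : ι → ℕ} (ctl : ∀ i, ℕ → Fin (M i) → Fin (M i) → Prop) (k : ℕ → ℝ)
    (S : Finset ℕ) (x : S × (Σ i, Fin (M i) × Fin (M i)) → ℝ) (m : ℕ) (i : ι)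
    (a c : Fin (M i)) : ℝ := by
  classical
  exact if h : m ∈ S then
    if ctl i m a c then clamp (k m) (x (⟨m, h⟩, ⟨i, a, c⟩))
    else if ctl i m c a then clamp (k m) (x (⟨m, h⟩, ⟨i, c, a⟩)) else 0
  else 0

section
variable {ι : Type} {M : ι → ℕ} {ctl : ∀ i, ℕ → Fin (M i) → Fin (M i) → Prop} {k : ℕ → ℝ}
  {S : Finset ℕ}

theorem fhKap_symm (hc : ∀ i m a c, ctl i m a c → ¬ ctl i m c a)
    (x : S × (Σ i, Fin (M i) × Fin (M i)) → ℝ) (m : ℕ) (i : ι) (a c : Fin (M i)) :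
    fhKap ctl k S x m i a c = fhKap ctl k S x m i c a := by
  unfold fhKap
  by_cases h : m ∈ S
  · by_cases h1 : ctl i m a c
    · simp [h, h1, hc i m a c h1]
    · by_cases h2 : ctl i m c a <;> simp [h, h1, h2]
  · simp [h]

theorem fhKap_diag (hc : ∀ i m a c, ctl i m a c → ¬ ctl i m c a)
    (x : S × (Σ i, Fin (M i) × Fin (M i)) → ℝ) (m : ℕ) (i : ι) (a : Fin (M i)) :
    fhKap ctl k S x m i a a = 0 := by
  have : ¬ ctl i m a a := fun h => hc i m a a h h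
  simp [fhKap, this]

theorem fhKap_not_mem (x : S × (Σ i, Fin (M i) × Fin (M i)) → ℝ) {m : ℕ} (h : m ∉ S) :
    fhKap ctl k S x m = 0 := by
  funext i a c
  simp [fhKap, h]

theorem fhKap_ctl (x : S × (Σ i, Fin (M i) × Fin (M i)) → ℝ) {m : ℕ} (h : m ∈ S) {i : ι}
    {a c : Fin (M i)} (hc : ctl i m a c) :
    fhKap ctl k S x m i a c = clamp (k m) (x (⟨m, h⟩, ⟨i, a, c⟩)) := by
  simp [fhKap, h, hc]

theorem fhKap_norm [Fintype ι] (x : S × (Σ i, Fin (M i) × Fin (M i)) → ℝ) {m : ℕ} (hk : 0 ≤ k m) :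
    ‖fhKap ctl k S x m‖ ≤ k m := by
  refine (pi_norm_le_iff_of_nonneg hk).2 (fun i => (pi_norm_le_iff_of_nonneg hk).2 (fun a =>
    (pi_norm_le_iff_of_nonneg hk).2 (fun c => ?_)))
  unfold fhKap
  rw [Real.norm_eq_abs]
  split_ifs
  · exact fh_abs_clamp hk _
  · exact fh_abs_clamp hk _
  · simpa using hk
  · simpa using hk

theorem fhKap_continuous (m : ℕ) : Continuous (fun x => fhKap ctl k S x m) := by
  refine continuous_pi (fun i => continuous_pi (fun a => continuous_pi (fun c => ?_)))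
  unfold fhKap
  split_ifs
  · exact (fh_continuous_clamp _).comp (continuous_apply _)
  · exact (fh_continuous_clamp _).comp (continuous_apply _)
  · exact continuous_const
  · exact continuous_const

end

variable {n : ℕ} {E : Type} [NormedAddCommGroup E] [NormedSpace ℝ E] [FiniteDimensional ℝ E]
  {ι : Type} [Fintype ι] [DecidableEq ι] {J : ι → Type} {F : Fam n E ι J} {M : ι → ℕ} {U : Set E}
  {good : ∀ i, Finset (Fin (M i))} {abar : ι → ℝ} (Lp : Loop F M U good abar) {𝒞 : Set E} {ρ : ℝ}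

omit [FiniteDimensional ℝ E] [Fintype ι] [DecidableEq ι] in
theorem fh_l_ge (hS : Setup F Lp.z 𝒞 ρ) (i : ι) (a : Fin (M i)) (σ : ℝ) : 1 ≤ Lp.l i a σ :=
  (F.b i).fh_one_le (hS.adm i _ (hS.ball σ (Metric.mem_closedBall_self hS.ρ_pos.le))) (Lp.eig i σ) a

omit [FiniteDimensional ℝ E] [Fintype ι] [DecidableEq ι] in
theorem fh_switch (i : ι) {a c : Fin (M i)} (hac : a ≠ c) {σ₁ σ₂ : ℝ} (h12 : σ₁ ≤ σ₂)
    (h : (Lp.l i a σ₁ - Lp.l i c σ₁) * (Lp.l i a σ₂ - Lp.l i c σ₂) ≤ 0) :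
    ∃ p : ℤ, σ₁ ≤ p + 1 / 2 ∧ (p : ℝ) + 1 / 2 ≤ σ₂ := by
  have hc : ∀ a, Continuous (Lp.l i a) := fun a =>
    (LipschitzWith.of_dist_le' (K := Lp.L) (fun σ σ' => Lp.lip i a σ σ')).continuous
  obtain ⟨s, hs, h0⟩ := fh_ivt ((hc a).sub (hc c)) h12 h
  have h1 := Lp.sep i a c s hac
  rw [show Lp.l i a s - Lp.l i c s = 0 from h0, abs_zero] at h1
  have h2 : hdist s ≤ 0 := by
    by_contra hc
    have := mul_pos Lp.c_pos (not_le.1 hc)
    linarith
  have h3 : s - 1 / 2 - round (s - 1 / 2) = 0 := abs_nonpos_iff.1 h2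
  exact ⟨round (s - 1 / 2), by linarith [hs.1], by linarith [hs.2]⟩

set_option maxHeartbeats 800000 in
theorem finite_horizon (hS : Setup F Lp.z 𝒞 ρ) (hM : ∀ i, 0 < M i) {η : ℝ} (hη : 0 < η) :
    ∃ K T₀ ε : ℝ, 0 < K ∧ 0 < ε ∧ ∀ t₀ T : ℕ, T₀ ≤ T → ∀ zi q, TimeData n Lp.z 𝒞 t₀ T zi q →
      ∃ C : ℝ, ∀ Th : ℕ, t₀ + T ≤ Th → ∃ (N : ℕ) (κ : ℕ → E) (c c₁ : ∀ i, Fin (M i) → J i → ℝ → ℝ),
        Th ≤ N ∧ CtrlSeq K t₀ T κ ∧
        (∀ i a, ∀ k ∈ (F.b i).low N, ∀ t, HasDerivAt (c i a k) (c₁ i a k t) t ∧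
          HasDerivAt (c₁ i a k) (∑ k₁ ∈ (F.b i).low N,
            (F.b i).qe (F.B i (cpath (zb zi Lp.z t₀ T) κ t)) k k₁ * c i a k₁ t + q t * c i a k t) t) ∧
        (∀ i a k t, k ∉ (F.b i).low N → c i a k t = 0) ∧
        (∀ i a k t, t ≤ 0 → c i a k t = c i a k 0 * Real.exp ((F.b i).rate k * t)) ∧
        (∀ i, ∀ a ∈ good i, ∀ k, ∀ t ∈ Icc (0 : ℝ) Th, |c i a k t| ≤
          C * Real.exp ((abar i + ((n : ℝ) - 2) / 2 + η) * t - ε * (F.b i).deg k)) ∧
        ∀ i (v : Fin (M i) → ℝ), ∑ a, v a ^ 2 ≤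
          C * ∑ k ∈ (F.b i).low N, (∑ a, v a * c i a k (t₀ + T : ℕ)) ^ 2 := by
  obtain ⟨C₀, hC₀, hdisc⟩ := exists_disc Lp hS hM
  choose C γ' ε' T₁ hC hγ' hε' hframe using fun i =>
    (F.b i).exists_frame F.d (M i) C₀ Lp.γ hC₀ Lp.γ_pos
  have hc : 0 < Lp.c / (2 * √(2 * C₀)) := by have := Lp.c_pos; positivity
  choose K₀ hK₀ hfb using fun i => feedback (M i) (C i) (γ' i) _ (hC i) (hγ' i) hc
  obtain ⟨K, hK, hKK⟩ := fh_exists_ge K₀
  choose T₂ C' hC' hfb' using fun i => hfb i K (hKK i)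
  choose e₀ he₀ hbvp using fun i => exists_bvp (M i) (C i) (γ' i) (hC i) (hγ' i)
  choose T₃ hT₃ using fun i => fh_th_small (δ := min (e₀ i) (1 / (2 * (C i * M i + 1))))
    (lt_min (he₀ i) (by have := hC i; positivity))
  obtain ⟨T₄, hdisc'⟩ := hdisc K hK
  obtain ⟨K', T₅, -, hpath⟩ := cpath_props Lp hS (C₀ * K) (by positivity)
  obtain ⟨ε₀, hε₀, hwt⟩ := weighted n F.d
  obtain ⟨ε₁, hε₁, hε₁'⟩ := fh_exists_pos_le (fun i => ε' i / 2) (fun i => half_pos (hε' i))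
  obtain ⟨T₆, hT₆, hT₆'⟩ := fh_exists_ge (fun i => max (T₁ i) (max (T₂ i) (T₃ i)))
  refine ⟨C₀ * K, max (max T₆ 2) (max T₄ T₅), min ε₀ ε₁, by positivity, lt_min hε₀ hε₁, ?_⟩
  intro t₀ T hT zi q hTD
  have hT1 : ∀ i, T₁ i ≤ T := fun i => (le_max_left _ _).trans ((hT₆' i).trans
    ((le_max_left _ _).trans ((le_max_left _ _).trans hT)))
  have hT2 : ∀ i, T₂ i ≤ T := fun i => (le_max_left _ _).trans ((le_max_right _ _).trans
    ((hT₆' i).trans ((le_max_left _ _).trans ((le_max_left _ _).trans hT))))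
  have hT3 : ∀ i, T₃ i ≤ T := fun i => (le_max_right _ _).trans ((le_max_right _ _).trans
    ((hT₆' i).trans ((le_max_left _ _).trans ((le_max_left _ _).trans hT))))
  have hT4 : T₄ ≤ T := (le_max_left _ _).trans ((le_max_right _ _).trans hT)
  have hT5 : T₅ ≤ T := (le_max_right _ _).trans ((le_max_right _ _).trans hT)
  have hTT : (2 : ℝ) ≤ T := (le_max_right _ _).trans ((le_max_left _ _).trans hT)
  have hTn : 1 ≤ T := by exact_mod_cast (show (1 : ℝ) ≤ T by linarith)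
  obtain ⟨Y, μ, R, hD, hR, hB⟩ := hdisc' t₀ T hT4 zi q hTD
  have hl := fh_l_ge Lp hS
  have havg : ∀ p : Σ i, Fin (M i), ∃ A : ℝ, p.2 ∈ good p.1 → ∀ m : ℕ, t₀ + T ≤ m →
      ∑ j ∈ Finset.Ico (t₀ + T) m, (√(Lp.l p.1 p.2 (sg t₀ T j)) + th t₀ T j ^ 3) ≤
        (abar p.1 + η) * ((m : ℝ) - (t₀ + T : ℕ)) + A := by
    rintro ⟨i, a⟩
    by_cases ha : a ∈ good i
    · obtain ⟨A, hA⟩ := avg_sum (fun σ => √(Lp.l i a σ)) Lp.L Lp.L (abar i) η hη
        (fun σ σ' => (fh_sqrt_lip (hl i a σ) (hl i a σ')).trans (Lp.lip i a σ σ'))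
        (Lp.avg i a ha) t₀ T (t₀ + T) hTn (Nat.le_add_right _ _)
      exact ⟨A, fun _ => hA⟩
    · exact ⟨0, fun h => absurd h ha⟩
  choose A hA using havg
  choose C₁ hC₁ hwt' using fun i => hwt (min ε₀ ε₁) (lt_min hε₀ hε₁) (min_le_left _ _)
    (abar i + ((n : ℝ) - 2) / 2 + η)
  obtain ⟨G, hG⟩ : ∃ G : ι → ℝ, ∀ i, G i =
      2 * M i * C i ^ 2 * (∑' k, Real.exp (-(ε' i * (F.b i).deg k))) := ⟨_, fun _ => rfl⟩
  have hG0 : ∀ i, 0 ≤ G i := fun i => by
    have : 0 ≤ ∑' k, Real.exp (-(ε' i * (F.b i).deg k)) := tsum_nonneg (fun k => (Real.exp_pos _).le)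
    rw [hG]; positivity
  obtain ⟨Ca, hCa, hCa'⟩ := fh_exists_ge (fun p : Σ i, Fin (M i) => C₁ p.1 * ((1 + G p.1) *
    (C' p.1 * Real.exp (|abar p.1 + ((n : ℝ) - 2) / 2 + η| * ((t₀ + T : ℕ) + 1) + A p))))
  obtain ⟨Cb, hCb, hCb'⟩ := fh_exists_ge C'
  refine ⟨max Ca Cb, fun Th hTh => ?_⟩
  have hTh0 : t₀ ≤ Th := le_trans (Nat.le_add_right _ _) hTh
  have hThR : ((t₀ + T : ℕ) : ℝ) ≤ Th := by exact_mod_cast hTh
  choose N₀ hN₀ using fun i => hframe i t₀ T Th (hT1 i) hTh0 _ (Y i) _ (μ i) q (hD i Th)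
  obtain ⟨N, hNT, hNN⟩ : ∃ N, Th ≤ N ∧ ∀ i, N₀ i ≤ N := ⟨max Th (Finset.univ.sup N₀),
    le_max_left _ _, fun i => (Finset.le_sup (f := N₀) (Finset.mem_univ i)).trans (le_max_right _ _)⟩
  choose P hPa hPX hP using fun i => hN₀ i N (hNN i)
  -- the controls
  obtain ⟨κ, hκ⟩ : ∃ κ : (↥(Finset.Ico (t₀ + T) Th) × (Σ i, Fin (M i) × Fin (M i)) → ℝ) →
      ℕ → ∀ i, Fin (M i) → Fin (M i) → ℝ, κ = fhKap (fun i m => (P i).ctl m)
        (fun m => K * th t₀ T m ^ 4) (Finset.Ico (t₀ + T) Th) := ⟨_, rfl⟩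
  have hk0 : ∀ m : ℕ, 0 ≤ K * th t₀ T m ^ 4 := fun m => by positivity
  have hasym : ∀ i m a c, (P i).ctl m a c → ¬ (P i).ctl m c a := fun i m a c => fh_ctl_asymm (P i) m
  have hκs : ∀ x m i a c, κ x m i a c = κ x m i c a := fun x => by
    rw [hκ]; exact fhKap_symm hasym x
  have hκd : ∀ x m i a, κ x m i a a = 0 := fun x => by rw [hκ]; exact fhKap_diag hasym x
  have hκ0 : ∀ x m, m ∉ Finset.Ico (t₀ + T) Th → κ x m = 0 := fun x m hm => by
    rw [hκ]; exact fhKap_not_mem x hm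
  have hκ0' : ∀ x m, m < t₀ + T → κ x m = 0 := fun x m hm =>
    hκ0 x m (fun h => by have := (Finset.mem_Ico.1 h).1; omega)
  have hκn : ∀ x (m : ℕ), ‖κ x m‖ ≤ K * th t₀ T m ^ 4 := fun x m => by
    rw [hκ]; exact fhKap_norm (k := fun m => K * th t₀ T m ^ 4) x (hk0 m)
  have hκc : ∀ m, Continuous (fun x => κ x m) := fun m => by rw [hκ]; exact fhKap_continuous m
  have hCS : ∀ x, CtrlSeq (C₀ * K) t₀ T (fun m => R m (κ x m)) := fun x =>
    ⟨fun m hm => by simp only [hκ0' x m hm, map_zero], fun m _ => (hR m _).trans (by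
      rw [mul_assoc]; exact mul_le_mul_of_nonneg_left (hκn x m) hC₀.le)⟩
  have hcp := fun x => hpath t₀ T hT5 zi q hTD _ (hCS x)
  have hcont : Continuous (fun p : (↥(Finset.Ico (t₀ + T) Th) × (Σ i, Fin (M i) × Fin (M i)) → ℝ) × ℝ
      => cpath (zb zi Lp.z t₀ T) (fun m => R m (κ p.1 m)) p.2) := by
    have hz : Continuous (zb zi Lp.z t₀ T) := by
      have h0 := (hpath t₀ T hT5 zi q hTD (fun _ => 0) ⟨fun _ _ => rfl, fun m _ => by
        rw [norm_zero]; positivity⟩).1.continuous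
      have : cpath (zb zi Lp.z t₀ T) (fun _ => 0) = zb zi Lp.z t₀ T := by
        funext t; simp [cpath]
      rwa [this] at h0
    exact fh_cpath_cont hz (fun x m => R m (κ x m)) (Finset.Ico (t₀ + T) Th)
      (fun x m hm => by rw [hκ0 x m hm, map_zero])
      (fun m => (R m).continuous_of_finiteDimensional.comp (hκc m))
  have hQc : ∀ i, Continuous (fun p : (↥(Finset.Ico (t₀ + T) Th) ×
      (Σ i, Fin (M i) × Fin (M i)) → ℝ) × ℝ => (F.b i).Qop ((F.b i).low N)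
        (F.B i (cpath (zb zi Lp.z t₀ T) (fun m => R m (κ p.1 m)) p.2)) (q p.2)) := fun i =>
    fh_Qop_cont (F.b i) _ ((F.smooth i).continuous.comp hcont)
      (hTD.q_smooth.continuous.comp continuous_snd)
  have hdyn := fun i x => hP i (fun t => F.B i (cpath (zb zi Lp.z t₀ T) (fun m => R m (κ x m)) t))
    (fun m => κ x m i) (fun t => F.symm i _) (fun t _ => hS.adm i _ ((hcp x).2.1 t))
    (fun t => F.band i _) (hB (κ x) (hκs x) (hκ0' x) (fun m _ => hκn x m) i)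
  choose w w₁ hw hwc using fun i => hbvp i _ (P i) _ (fun x t => (F.b i).Qop ((F.b i).low N)
      (F.B i (cpath (zb zi Lp.z t₀ T) (fun m => R m (κ x m)) t)) (q t))
    ((F.b i).fhLam ((F.b i).low N)) t₀ (t₀ + T : ℕ) Th (fun t => th t₀ T t ^ 3) (hQc i)
    ((F.b i).fhLam_nonneg _) (fun x => (hdyn i x).1) (by push_cast; linarith) hThR
    ((hT₃ i t₀ T (hT3 i)).trans (min_le_left _ _))
    (fun t ht => fh_exp_le_th (by linarith) (by simpa using ht.1))
  -- the fixed point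
  obtain ⟨x, hx⟩ := Crest.Agent.R74.brouwer
    (κ := ↥(Finset.Ico (t₀ + T) Th) × (Σ i, Fin (M i) × Fin (M i)))
    (h := fun x p => clamp (K * th t₀ T (p.1 : ℕ) ^ 4)
      ((P p.2.1).fb (w p.2.1 x) (w₁ p.2.1 x) p.1 p.2.2.1 p.2.2.2))
    (continuous_pi (fun p => (fh_continuous_clamp _).comp (fh_cont_fb _ (hwc p.2.1) _ _ _)))
    (C := ∑ m ∈ Finset.Ico (t₀ + T) Th, K * th t₀ T m ^ 4) (fun x =>
      (pi_norm_le_iff_of_nonneg (Finset.sum_nonneg (fun m _ => hk0 m))).2 (fun p =>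
        (fh_abs_clamp (hk0 _) _).trans
          (Finset.single_le_sum (f := fun m : ℕ => K * th t₀ T m ^ 4) (fun m _ => hk0 m) p.1.2)))
  have hlq : ∀ i a (m : ℕ), t₀ ≤ m → 0 ≤ Lp.l i a (sg t₀ T m) + q m ∧
      Lp.l i a (sg t₀ T m) + q m ≤ 2 * C₀ := by
    intro i a m hm
    have a1 := (hD i Th).q_nonneg m (by exact_mod_cast hm)
    have a2 := (hD i Th).q_le m
    have a3 := (hD i Th).gap a m hm
    have a4 := (hD i Th).μ_le m hm
    have a5 := hl i a (sg t₀ T m)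
    have a6 := Lp.γ_pos
    constructor <;> linarith
  have hres := fun i => hfb' i _ (P i) _ t₀ T Th (hT2 i) hTh (hdyn i x).1 (fun m => κ x m i)
    (fun m => hκs x m i) (fun m => hκd x m i)
    (fun m h1 h2 => (hdyn i x).2 m (by omega) h2)
    (fun m h1 h2 a c hac => by
      have hm : t₀ ≤ m := by omega
      rw [hPa i a m hm h2, hPa i c m hm h2, div_mul_eq_mul_div, div_le_iff₀ (by positivity)]
      refine (Lp.sep i a c _ hac).trans (le_trans (le_of_eq ?_) (fh_sqrt_sep (hlq i a m hm).1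
        (hlq i c m hm).1 (hlq i a m hm).2 (hlq i c m hm).2))
      congr 1; ring)
    (fun m h1 h2 a c hac h => by
      have hm : t₀ ≤ m := by omega
      have hm' : t₀ ≤ m + 1 := by omega
      rw [hPa i a m hm h2.le, hPa i c m hm h2.le, hPa i a (m + 1) hm' h2, hPa i c (m + 1) hm' h2] at h
      have h' := fh_sqrt_sign (hlq i a m hm).1 (hlq i c m hm).1 (hlq i a _ hm').1 (hlq i c _ hm').1 h
      have hmR : (t₀ : ℝ) ≤ m := by exact_mod_cast hm
      have hst := (sg_step (t₀ := t₀) (T := T) (s := m) (t := (m + 1 : ℕ)) (by linarith)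
        (by push_cast; linarith)).1
      have : 0 ≤ th t₀ T (m + 1 : ℕ) ^ 6 * (((m + 1 : ℕ) : ℝ) - m) := by
        push_cast; rw [add_sub_cancel_left]; positivity
      refine fh_switch Lp i hac (by linarith) ?_
      convert h' using 2 <;> ring)
    (w i x) (w₁ i x) (fun j => (hw i x j).1) (fun a j => (hw i x j).2.2 a)
    (fun m h1 h2 a c hac => by
      have hm : m ∈ Finset.Ico (t₀ + T) Th := Finset.mem_Ico.2 ⟨h1, h2⟩
      have e := congrFun hx (⟨m, hm⟩, ⟨i, a, c⟩)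
      have e2 : κ x m i a c = clamp (K * th t₀ T m ^ 4) (x (⟨m, hm⟩, ⟨i, a, c⟩)) := by
        rw [hκ]; exact fhKap_ctl (ctl := fun i m => (P i).ctl m) x hm hac
      simp only at e ⊢
      rw [e2, ← e, fh_clamp_clamp (hk0 m)])
  refine ⟨N, fun m => R m (κ x m), fun i a => fhExt _ (w i x a), fun i a => fhExt _ (w₁ i x a),
    hNT, hCS x, fun i a => (F.b i).fh_deriv _ (hw i x a).1.sol,
    fun i a k t hk => fhExt_not_mem _ hk t, fun i a k t ht => ?_, fun i a ha k t ht => ?_,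
    fun i v => ?_⟩
  · by_cases hk : k ∈ (F.b i).low N
    · simp only [fhExt_mem _ hk]
      refine (F.b i).fh_left _ ((hQc i).comp (Continuous.prodMk_right x)) (fun s hs => ?_)
        (hw i x a).1.sol (hw i x a).2.1 ht ⟨k, hk⟩
      simp only [Function.comp]
      rw [(hcp x).2.2.1 s (hs.trans (Nat.cast_nonneg _)), hTD.zi_left s hs, F.zero,
        hTD.q_left s hs]
    · simp only [fhExt_not_mem _ hk, zero_mul]
  · have hTh1 : (0 : ℝ) ≤ Th := Nat.cast_nonneg _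
    by_cases hk : k ∈ (F.b i).low N
    swap
    · simp only [fhExt_not_mem _ hk, abs_zero]
      have := hCa.le.trans (le_max_left Ca Cb)
      positivity
    have hn3 : (3 : ℝ) ≤ n := by exact_mod_cast (F.b i).hn
    have hgrow := fh_growth (W := fun t => ‖w i x a t‖) (α := abar i + ((n : ℝ) - 2) / 2 + η)
      (A := A ⟨i, a⟩) hTh (hC' i).le _ (fun m h1 h2 => by
        have a1 := hA ⟨i, a⟩ ha m h1
        have a2 : ∑ j ∈ Finset.Ico (t₀ + T) m, ((P i).a a j + th t₀ T j ^ 3) ≤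
            ∑ j ∈ Finset.Ico (t₀ + T) m, ((√(Lp.l i a (sg t₀ T j)) + th t₀ T j ^ 3) +
              ((n : ℝ) - 2) / 2) := by
          refine Finset.sum_le_sum (fun j hj => ?_)
          rw [Finset.mem_Ico] at hj
          rw [hPa i a j (by omega) (by omega)]
          have := fh_sqrt_add (x := Lp.l i a (sg t₀ T j)) (by linarith [hl i a (sg t₀ T j)])
            (by linarith) (hTD.q_le j)
          linarith
        rw [Finset.sum_add_distrib (g := fun _ => ((n : ℝ) - 2) / 2), Finset.sum_const,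
          Nat.card_Ico, nsmul_eq_mul, Nat.cast_sub h1] at a2
        simp only at a1
        linarith) ((hres i).1 a)
    obtain ⟨C₂, hC₂⟩ : ∃ C₂, C₂ = C' i * Real.exp (|abar i + ((n : ℝ) - 2) / 2 + η| *
      ((t₀ + T : ℕ) + 1) + A ⟨i, a⟩) := ⟨_, rfl⟩
    have hCa2 := hCa' ⟨i, a⟩
    simp only at hCa2
    rw [← hC₂] at hgrow hCa2
    have hC₂0 : 0 ≤ C₂ := by rw [hC₂]; have := hC' i; positivity
    have hGi := hG0 i
    have hsq : ∀ t ∈ Icc (0 : ℝ) Th, ‖w i x a t‖ ^ 2 ≤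
        (C₂ * Real.exp ((abar i + ((n : ℝ) - 2) / 2 + η) * t)) ^ 2 := fun t ht =>
      pow_le_pow_left₀ (norm_nonneg _) (hgrow t ht) 2
    have hfin := hwt' i (J i) (F.b i) ((F.b i).low N)
      (fun t => F.B i (cpath (zb zi Lp.z t₀ T) (fun m => R m (κ x m)) t)) q Th ((1 + G i) * C₂)
      (fhExt _ (w i x a)) (fhExt _ (w₁ i x a)) hTh1 (by positivity)
      (fun t _ => ⟨hS.adm i _ ((hcp x).2.1 t), F.band i _, hTD.q_ge t⟩)
      (fun k hk t _ => (F.b i).fh_deriv _ (hw i x a).1.sol k hk t)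
      (fun k hk => by rw [fhExt_mem _ hk, fhExt_mem _ hk, (hw i x a).2.1, Base.fhLam_apply])
      (fun t ht => by
        rw [fh_norm_sq]
        refine (hsq t ht).trans (pow_le_pow_left₀ (by positivity) ?_ 2)
        rw [mul_assoc]
        exact le_mul_of_one_le_left (by positivity) (by linarith))
      (by
        obtain ⟨v, hv⟩ := (hw i x a).1.right
        have hThI : (Th : ℝ) ∈ Icc (t₀ : ℝ) Th := ⟨by exact_mod_cast hTh0, le_rfl⟩
        have a1 := (hdyn i x).1.e_pos Th hThI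
        have a2 := (hdyn i x).1.e_anti (left_mem_Icc.2 hThI.1) hThI hThI.1
        have a3 := (hT₃ i t₀ T (hT3 i)).trans (min_le_right _ _)
        have a4 := hC i
        have a5 : (0 : ℝ) ≤ M i := Nat.cast_nonneg _
        have a6 : th t₀ T Th ^ 3 * (2 * (C i * M i + 1)) ≤ 1 := by
          rw [← le_div_iff₀ (by positivity)]; exact a2.trans a3
        have a7 := (F.b i).fh_right _ (fun a => (P i).X a Th) (ε := min ε₀ ε₁)
          (fun a c => (hdyn i x).1.gram a c Th hThI) (by positivity) (by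
            have b1 : 0 ≤ th t₀ T Th ^ 3 * (C i * M i) := by positivity
            nlinarith) (hε' i) ((min_le_right _ _).trans (hε₁' i)) (hPX i) (w i x a) Th v hv
        rw [← hG] at a7
        refine a7.trans ?_
        calc G i * ‖w i x a Th‖ ^ 2 ≤ (1 + G i) ^ 2 *
            (C₂ * Real.exp ((abar i + ((n : ℝ) - 2) / 2 + η) * Th)) ^ 2 :=
              mul_le_mul (by nlinarith) (hsq Th ⟨hTh1, le_rfl⟩) (by positivity) (by positivity)
          _ = _ := by ring) t ht k hk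
    exact hfin.trans (mul_le_mul_of_nonneg_right (hCa2.trans (le_max_left _ _)) (by positivity))
  · rw [fh_norm_sq_sum]
    exact ((hres i).2 v).trans (mul_le_mul_of_nonneg_right ((hCb' i).trans (le_max_right _ _))
      (by positivity))

end Crest.Agent.R202
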